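import Mathlib
import Vale.Agent.Lib.P243.CapMain
import Vale.Agent.Lib.P243.R3.Defs
open MeasureTheory Set Vale.Agent.Lib.P243 Vale.Agent.Lib.P243.R3

/-!
# P243 R3, job J9 (backup copy by helper28): a gain point from a chord-length inequality
-/

namespace Vale.Agent.Lib.P243.R3.H28

/-- The chord over `o` is at least as long as the given chord of length `l`. -/
lemma M3g_len_base {K : Set (ℝ × (ℝ × ℝ))} (hK : IsCompact K) (hc : Convex ℝ K)
    {z0 l : ℝ} {o : ℝ × ℝ} (hl : 0 < l) (h0 : (z0, o) ∈ K) (h1 : (z0 + l, o) ∈ K) :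
    l ≤ Cap.len K o := by
  have hsub : Icc z0 (z0 + l) ⊆ Cap.fib K o := by
    intro ζ hζ
    have hseg : ((ζ, o) : ℝ × (ℝ × ℝ)) ∈ segment ℝ ((z0, o) : ℝ × (ℝ × ℝ)) (z0 + l, o) := by
      refine ⟨1 - (ζ - z0) / l, (ζ - z0) / l, ?_, ?_, by ring, ?_⟩
      · rw [sub_nonneg, div_le_one hl]; linarith [hζ.2]
      · exact div_nonneg (by linarith [hζ.1]) hl.le
      · ext
        · simp only [Prod.fst_add, Prod.smul_fst, smul_eq_mul]
          field_simp
          ring
        · simp only [Prod.snd_add, Prod.smul_snd, Prod.fst_add, Prod.smul_fst, smul_eq_mul]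
          ring
        · simp only [Prod.snd_add, Prod.smul_snd, Prod.smul_snd, smul_eq_mul]
          ring
    exact hc.segment_subset h0 h1 hseg
  have hvol : ENNReal.ofReal l ≤ volume (Cap.fib K o) := by
    calc ENNReal.ofReal l = volume (Icc z0 (z0 + l)) := by
          rw [Real.volume_Icc]; congr 1; ring
      _ ≤ volume (Cap.fib K o) := measure_mono hsub
  unfold Cap.len
  exact (ENNReal.ofReal_le_iff_le_toReal (Cap.fib_fin hK o)).1 hvol

theorem M3g_gain_of_chord {K : Set (ℝ × (ℝ × ℝ))} (hK : IsCompact K) (hc : Convex ℝ K)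
    {z0 l : ℝ} {o : ℝ × ℝ} (hl : 0 < l) (h0 : (z0, o) ∈ K) (h1 : (z0 + l, o) ∈ K)
    {ξ : ℝ × ℝ} (hξ : ξ ∈ Prod.snd '' K) {s : ℝ} (hs0 : 0 ≤ s) (hs1 : s ≤ 1)
    (h : (1 - s) * l + s * Cap.len K ξ < Cap.len K (o + s • (ξ - o))) :
    ∃ y ∈ Prod.snd '' K, ∃ t : ℝ, 0 < t ∧ t < Cap.len K y ∧
      (l ≤ t ∨ ∀ q ∈ Prod.snd '' K, y ≠ o + (1 - t / l) • (q - o)) := by
  have hlo : l ≤ Cap.len K o := M3g_len_base hK hc hl h0 h1
  have hoP : o ∈ Prod.snd '' K := ⟨(z0, o), h0, rfl⟩
  have hPc : Convex ℝ (Prod.snd '' K) := hc.is_linear_image (LinearMap.snd ℝ ℝ (ℝ × ℝ)).isLinear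
  have hfξ : 0 ≤ Cap.len K ξ := Cap.len_nonneg ξ
  have hyP : o + s • (ξ - o) ∈ Prod.snd '' K := by
    have : o + s • (ξ - o) = (1 - s) • o + s • ξ := by
      rw [smul_sub, sub_smul, one_smul]; abel
    rw [this]
    exact hPc hoP hξ (sub_nonneg.2 hs1) hs0 (by ring)
  have hA : 0 ≤ (1 - s) * l + s * Cap.len K ξ :=
    add_nonneg (mul_nonneg (sub_nonneg.2 hs1) hl.le) (mul_nonneg hs0 hfξ)
  refine ⟨o + s • (ξ - o), hyP,
    ((1 - s) * l + s * Cap.len K ξ + Cap.len K (o + s • (ξ - o))) / 2, by linarith, by linarith, ?_⟩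
  set t : ℝ := ((1 - s) * l + s * Cap.len K ξ + Cap.len K (o + s • (ξ - o))) / 2 with ht
  have hAt : (1 - s) * l + s * Cap.len K ξ < t := by rw [ht]; linarith
  have ht0 : 0 < t := lt_of_le_of_lt hA hAt
  by_cases hlt : l ≤ t
  · exact Or.inl hlt
  · right
    intro q hq heq
    replace hlt : t < l := not_le.1 hlt
    set μ : ℝ := 1 - t / l with hμ
    have hμl : μ * l = l - t := by rw [hμ]; field_simp
    have hμ0 : 0 < μ := by rw [hμ, sub_pos, div_lt_one hl]; exact hlt
    -- key strict inequality: μ l < s (l - f ξ)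
    have hkey : μ * l < s * (l - Cap.len K ξ) := by nlinarith
    have hs_pos : 0 < s := by
      by_contra hs
      have hs' : s = 0 := le_antisymm (not_lt.1 hs) hs0
      rw [hs'] at hkey
      nlinarith [mul_pos hμ0 hl]
    have hμs : μ < s := by
      have : μ * l < s * l := by nlinarith [mul_nonneg hs0 hfξ]
      exact lt_of_mul_lt_mul_right this hl.le
    -- ξ as a convex combination of o and q
    have hvec : s • (ξ - o) = μ • (q - o) := add_left_cancel heq
    have hξeq : ξ = (1 - μ / s) • o + (μ / s) • q := by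
      have h1 : ξ - o = (μ / s) • (q - o) := by
        have : (s⁻¹ * s) • (ξ - o) = (s⁻¹ * μ) • (q - o) := by
          rw [mul_smul, mul_smul, hvec]
        rw [inv_mul_cancel₀ hs_pos.ne', one_smul] at this
        rw [this]; congr 1; ring
      have h2 : ξ = o + (μ / s) • (q - o) := by rw [← h1]; abel
      rw [h2, smul_sub, sub_smul, one_smul]; abel
    have hθ0 : 0 ≤ μ / s := div_nonneg hμ0.le hs_pos.le
    have hθ1 : μ / s ≤ 1 := by rw [div_le_one hs_pos]; exact hμs.le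
    have hconc := Cap.len_concave hK hc hoP hq (μ / s) hθ0 hθ1
    rw [← hξeq] at hconc
    have hfq : 0 ≤ Cap.len K q := Cap.len_nonneg q
    have h3 : (1 - μ / s) * l ≤ Cap.len K ξ := by
      have h4 : (1 - μ / s) * l ≤ (1 - μ / s) * Cap.len K o :=
        mul_le_mul_of_nonneg_left hlo (sub_nonneg.2 hθ1)
      have h5 : 0 ≤ μ / s * Cap.len K q := mul_nonneg hθ0 hfq
      linarith
    have h6 : (s - μ) * l ≤ s * Cap.len K ξ := by
      have h7 : s * ((1 - μ / s) * l) ≤ s * Cap.len K ξ := mul_le_mul_of_nonneg_left h3 hs_pos.le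
      have h8 : s * ((1 - μ / s) * l) = (s - μ) * l := by field_simp
      linarith
    nlinarith

end Vale.Agent.Lib.P243.R3.H28
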