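import Mathlib
import Vale.Agent.Lib.P243.Transfer
import Vale.Agent.Lib.P243.R3.Defs
open Vale.Agent.Lib.P243 Vale.Agent.Lib.P243.R3

/-!
# P243 R3, job J4 (backup copy by helper28): an orthonormal pair perpendicular to a vector
-/

namespace Vale.Agent.Lib.P243.R3.H28

theorem M1b_exists_perp_pair (w : E3) :
    ∃ a b : E3, OrthoPair a b ∧ inner ℝ w a = 0 ∧ inner ℝ w b = 0 := by
  by_cases hw : w = 0
  · subst hw
    refine ⟨EuclideanSpace.single 0 1, EuclideanSpace.single 1 1, ⟨?_, ?_, ?_⟩, ?_, ?_⟩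
    · simp
    · simp
    · simp [EuclideanSpace.inner_single_left]
    · simp
    · simp
  · have h2 : Module.finrank ℝ ↥(ℝ ∙ w)ᗮ = 2 := finrank_orth w hw
    let b' : OrthonormalBasis (Fin 2) ℝ ↥(ℝ ∙ w)ᗮ :=
      (stdOrthonormalBasis ℝ ↥(ℝ ∙ w)ᗮ).reindex (finCongr h2)
    refine ⟨((b' 0 : ↥(ℝ ∙ w)ᗮ) : E3), ((b' 1 : ↥(ℝ ∙ w)ᗮ) : E3), ⟨?_, ?_, ?_⟩, ?_, ?_⟩
    · rw [← Submodule.coe_norm]; exact b'.orthonormal.1 0
    · rw [← Submodule.coe_norm]; exact b'.orthonormal.1 1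
    · have h01 : inner ℝ (b' 0) (b' 1) = 0 := b'.orthonormal.2 (by decide)
      rw [Submodule.coe_inner] at h01
      exact h01
    · exact (Submodule.mem_orthogonal_singleton_iff_inner_right.1 (b' 0).2)
    · exact (Submodule.mem_orthogonal_singleton_iff_inner_right.1 (b' 1).2)

end Vale.Agent.Lib.P243.R3.H28
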